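import Vale.Agent.N255.Main

open scoped Manifold ContDiff

namespace Vale.Agent.Results.P255.A0NoFocal

open Vale.Agent.P255 Vale.Agent.P255.H370 Vale.Agent.N255

/-- (1) In every dimension `n ≥ 3` there is a closed connected smooth manifold `M` with a metric
without conjugate points such that the fundamental group of a closed manifold with a metric
without focal points contains no subgroup of finite index of `π₁(M)`.
(2) Nonpositive curvature implies no focal points, which implies no conjugate points. -/
theorem result :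
    (∀ n : ℕ, 3 ≤ n →
      ∃ (E : Type) (_ : NormedAddCommGroup E) (_ : NormedSpace ℝ E)
        (M : Type) (_ : TopologicalSpace M) (_ : ChartedSpace E M) (_ : IsManifold 𝓘(ℝ, E) ∞ M),
        Module.finrank ℝ E = n ∧
        CompactSpace M ∧ T2Space M ∧ SecondCountableTopology M ∧ ConnectedSpace M ∧
        AdmitsNoConj E M ∧
        ∀ (F : Type) [NormedAddCommGroup F] [NormedSpace ℝ F] [FiniteDimensional ℝ F]
          (N : Type) [TopologicalSpace N] [ChartedSpace F N] [IsManifold 𝓘(ℝ, F) ∞ N]
          [CompactSpace N] [T2Space N] (p : N), AdmitsNoFocal F N →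
          ∀ (m : M) (H : Subgroup (FundamentalGroup M m)), H.FiniteIndex →
            ∀ φ : H →* FundamentalGroup N p, ¬ Function.Injective φ) ∧
    -- (2)
    ∀ (E : Type) [NormedAddCommGroup E] [NormedSpace ℝ E] [FiniteDimensional ℝ E]
      (M : Type) [TopologicalSpace M] [ChartedSpace E M] [IsManifold 𝓘(ℝ, E) ∞ M]
      (g : RMetric E M),
      (NonposCurvature g → NoFocalPoints g) ∧ (NoFocalPoints g → NoConjugatePoints g) :=
  ⟨fun n hn => by
    obtain ⟨E, i1, i2, M, i3, i4, i5, h1, h2, h3, h4, h5, h6, -, h7⟩ := main.1 n hn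
    exact ⟨E, i1, i2, M, i3, i4, i5, h1, h2, h3, h4, h5, h6.1,
      fun F _ _ _ N _ _ _ _ _ p hN => (h7 F N p hN).2⟩, main.2⟩

end Vale.Agent.Results.P255.A0NoFocal
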